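import Mathlib
import Vale.Agent.P097.H407D.Main
import Vale.Agent.P097.H407.Det

namespace Vale.Agent.Results.P097.AllEllipses

open Vale.Agent.P097 Vale.Agent.P097.TOP Vale.Agent.P097.H407
open Filter
open scoped Topology

/-- The local near-boundary Birkhoff conjecture at every ellipse, discs included; the uniform gap
between the ellipses and the other tables which are integrable near the boundary; connected and
real-analytic families of such tables through an ellipse; finite determinacy. -/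
theorem result :
    (∀ a b φ p q : ℝ, 0 < a → 0 < b → ∀ η : ℝ, 0 < η → ∃ (k : ℕ) (κ : ℝ), 0 < κ ∧
      ∀ h : ℝ → ℝ, SmoothTable h → (Collar h η ∨ Leaves h η) →
        CkClose k κ h (ellipse a b φ p q) → IsEllipse h) ∧
    (∀ (η c : ℝ) (A : ℕ → ℝ), 0 < η → 0 < c → ∃ (k : ℕ) (κ : ℝ), 0 < κ ∧ ∀ h : ℝ → ℝ,
      SmoothTable h → (Collar h η ∨ Leaves h η) → Bdk k A c h → ∀ e : ℝ → ℝ, IsEllipse e →
        (∀ x, |h x - e x| ≤ κ) → IsEllipse h) ∧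
    (∀ (X : Type) [TopologicalSpace X] [PreconnectedSpace X] (H : X → ℝ → ℝ),
      (∀ x, SmoothTable (H x)) →
      (∀ x₀, ∃ η : ℝ, 0 < η ∧ ∀ᶠ x in 𝓝 x₀, Collar (H x) η ∨ Leaves (H x) η) →
      (∀ (i : ℕ) (x₀ : X),
        TendstoUniformly (fun x => iteratedDeriv i (H x)) (iteratedDeriv i (H x₀)) (𝓝 x₀)) →
      (∃ x, IsEllipse (H x)) → ∀ x, IsEllipse (H x)) ∧
    (∀ (I : Set ℝ) (H : ℝ → ℝ → ℝ) (t₀ η : ℝ), IsPreconnected I → t₀ ∈ I → 0 < η →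
      (∀ t ∈ I, SmoothTable (H t)) → (∀ s, AnalyticOnNhd ℝ (fun t => H t s) I) →
      (∀ i : ℕ, TendstoUniformly (fun t => iteratedDeriv i (H t)) (iteratedDeriv i (H t₀))
        (𝓝[I] t₀)) →
      IsEllipse (H t₀) →
      (∃ᶠ t in 𝓝[I \ {t₀}] t₀, Collar (H t) η ∨ Leaves (H t) η) → ∀ t ∈ I, IsEllipse (H t)) ∧
    (∀ (η c : ℝ) (A : ℕ → ℝ), 0 < η → 0 < c → ∃ k N : ℕ, ∀ h₁ h₂ : ℝ → ℝ,
      SmoothTable h₁ → SmoothTable h₂ → (Collar h₁ η ∨ Leaves h₁ η) →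
      (Collar h₂ η ∨ Leaves h₂ η) → Bdk k A c h₁ → Bdk k A c h₂ →
      ∀ x, |h₁ x - h₂ x| ≤ ∑ m ∈ Finset.range (N + 1),
        (|∫ t in (0 : ℝ)..(2 * Real.pi), (h₁ t - h₂ t) * Real.cos (m * t)| +
          |∫ t in (0 : ℝ)..(2 * Real.pi), (h₁ t - h₂ t) * Real.sin (m * t)|)) :=
  ⟨H407D.main_all.1, H407D.main_all.2.1, H407D.main_all.2.2.1, H407D.main_all.2.2.2,
    fun _ _ A hη hc => finite_det A hη hc⟩

end Vale.Agent.Results.P097.AllEllipses
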