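import Vale.Agent.P097.Bdl.B3
import Vale.Agent.P097.Bdl.B4
import Vale.Agent.P097.H407D.Main
import Vale.Agent.P097.H407.Det
import Vale.Agent.P097.H421.Defs

namespace Vale.Agent.Results.P097.SmoothAndEllipses

open Vale.Agent.P097 Vale.Agent.P097.Cusp Vale.Agent.P097.TOP Vale.Agent.P097.H407
open Vale.Agent.P097.H421

/-- Tables which are integrable near the boundary are real-analytic and determined by any arc
(`RegularTables`), rare on lines of support functions (`FewOnLines`, `AnalyticLines`), not of the
form `CosineTables`, ellipses if they are close to any given ellipse, discs included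
(`LocalAtEllipses`, `UniformGap`), or joined to one through such tables (`ConnectedFamilies`,
`AnalyticFamilies`), and finitely determined (`FinitelyDetermined`). -/
theorem result :
    -- regularity and rarity
    (RegularTables ∧ FewOnLines ∧ AnalyticLines ∧ CosineTables) ∧
    -- rigidity of all ellipses, discs included, and finite determinacy
    (LocalAtEllipses ∧ UniformGap ∧ ConnectedFamilies ∧ AnalyticFamilies ∧
      FinitelyDetermined) := by
  refine ⟨⟨?_, ?_, ?_, ?_⟩, Vale.Agent.P097.H407D.main_all.1, Vale.Agent.P097.H407D.main_all.2.1,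
    Vale.Agent.P097.H407D.main_all.2.2.1, Vale.Agent.P097.H407D.main_all.2.2.2,
    fun _ _ A hη hc => finite_det A hη hc⟩
  · intro h H hc
    exact ⟨regularity H hc, fun e he a b hab heq => arc_unique H hc he hab heq⟩
  · intro h₀ g H0 hpg hnc
    exact smooth_lines H0 hpg hnc
  · intro h₀ g H0 hg hpg hnc
    obtain ⟨m1, -, m3⟩ := main_all H0 hg hpg hnc
    refine ⟨m1, m3.mono ?_⟩
    rintro s ⟨h1, h2⟩
    exact ⟨h1, Or.inr h2⟩
  · intro b p q β a h h0 hk hs hh HT
    have e : h = gser b p q β a := funext hh
    rw [e] at HT ⊢
    refine gser_leaf p q β (fun R => ?_) h0 hk HT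
    refine (hs R).congr (fun k => ?_)
    rw [abs_of_nonneg (h0 k)]

end Vale.Agent.Results.P097.SmoothAndEllipses
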